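import Vale.Agent.P286ET.Defs

/-!
# Equivalences of categories of twisted families: formal properties and gauge transformations
-/

namespace Vale.Agent.P286ET

open CategoryTheory
open Vale.Agent.P286.H847 (GD)
open Vale.Agent.P286.H353

noncomputable section

universe u v u₁ v₁ u₂ v₂

theorem inv_trans {C : Type*} [Category* C] {D : Type*} [Category* D] {E : Type*} [Category* E]
    {W : MorphismProperty C} {W' : MorphismProperty D} {W'' : MorphismProperty E}
    {F : C ⥤ D} {G : D ⥤ C} {F' : D ⥤ E} {G' : E ⥤ D} (h : Inv W W' F G) (h' : Inv W' W'' F' G') :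
    Inv W W'' (F ⋙ F') (G' ⋙ G) where
  pF _ _ _ hu := h'.pF _ (h.pF _ hu)
  pG _ _ _ hu := h.pG _ (h'.pG _ hu)
  un := Zig.trans ((h'.un.right G h.pG).left F) h.un
  co := Zig.trans ((h.co.right F' h'.pF).left G') h'.co

theorem DInv.refl (C : DGC.{u, v}) (W : MorphismProperty (Z0 C)) : DInv C W C W :=
  ⟨DGF.id C, DGF.id C, fun _ _ _ h => h, fun _ _ _ h => h, Relation.EqvGen.refl _,
    Relation.EqvGen.refl _⟩

theorem DInv.symm {C : DGC.{u, v}} {W : MorphismProperty (Z0 C)} {D : DGC.{u₁, v₁}}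
    {W' : MorphismProperty (Z0 D)} (h : DInv C W D W') : DInv D W' C W := by
  obtain ⟨Φ, Ψ, h⟩ := h
  exact ⟨Ψ, Φ, h.symm⟩

theorem DInv.trans {C : DGC.{u, v}} {W : MorphismProperty (Z0 C)} {D : DGC.{u₁, v₁}}
    {W' : MorphismProperty (Z0 D)} {E : DGC.{u₂, v₂}} {W'' : MorphismProperty (Z0 E)}
    (h : DInv C W D W') (h' : DInv D W' E W'') : DInv C W E W'' := by
  obtain ⟨Φ, Ψ, h⟩ := h
  obtain ⟨Φ', Ψ', h'⟩ := h'
  exact ⟨Φ.comp Φ', Ψ'.comp Ψ, inv_trans h h'⟩

variable {I J K : Type} [SmallCategory I] [SmallCategory J] [SmallCategory K]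

theorem TEq.refl (T : TDat I) : TEq T T := DInv.refl _ _

theorem TEq.symm {T : TDat I} {T' : TDat J} (h : TEq T T') : TEq T' T := DInv.symm h

theorem TEq.trans {T : TDat I} {T' : TDat J} {T'' : TDat K} (h : TEq T T') (h' : TEq T' T'') :
    TEq T T'' := DInv.trans h h'

section Ring

variable {A B : Type} [CommRing A] [CommRing B] [Algebra ℂ A] [Algebra ℂ B]

/-- An element which becomes a unit divides a power of `s`. -/
theorem IsAway.dvd {φ : A →ₐ[ℂ] B} {s : A} (h : IsAway φ s) {t : A} (ht : IsUnit (φ t)) :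
    ∃ (n : ℕ) (c : A), s ^ n = t * c := by
  obtain ⟨u, hu⟩ := ht
  obtain ⟨n, x, e⟩ := h.surj ((u⁻¹ : Bˣ) : B)
  obtain ⟨m, e'⟩ := h.ker (s ^ n - t * x) (by
    rw [map_sub, map_mul, map_pow, ← e, ← hu, mul_left_comm, Units.mul_inv, mul_one, sub_self])
  exact ⟨m + n, s ^ m * x, by rw [pow_add]; linear_combination e'⟩

/-- The multiplication by an element of the ring. -/
def RG.ml (M : RG A) (r : A) : M.V →ₗ[ℂ] M.V where
  toFun x := r • x
  map_add' := smul_add r
  map_smul' c x := smul_comm r c x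

theorem RG.ml_apply (M : RG A) (r : A) (x : M.V) : M.ml r x = r • x := rfl

/-- Restriction of scalars. -/
def RG.res (M : RG A) (m : B →ₐ[ℂ] A) : RG B where
  toGD := M.toGD
  md := Module.compHom M.V (m : B →+* A)
  tw := by
    let _ := Module.compHom M.V (m : B →+* A)
    refine ⟨fun c r x => ?_⟩
    change m (c • r) • x = c • (m r • x)
    rw [map_smul, smul_assoc]
  d_smul r x := M.d_smul (m r) x
  gr_smul n r x hx := M.gr_smul n (m r) x hx

/-- The condition `LocQ` is unchanged by a unit factor and depends only on the localisation. -/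
theorem LocQ.change {M : RG A} {N : RG B} {ρ : M.V →ₗ[ℂ] N.V} {φ : A →ₐ[ℂ] B} {s : A}
    (h : LocQ M N ρ s (φ s)) (hρ : ∀ (r : A) (x : M.V), ρ (r • x) = φ r • ρ x) (u : Bˣ)
    {s' c : A} {k : ℕ} (e : s' ^ k = s * c) : LocQ M N (N.ml u ∘ₗ ρ) s' (φ s') := by
  intro m
  refine ⟨?_, ?_⟩
  · rintro x hx hd ⟨y, hy, ey⟩
    obtain ⟨n, x', hx', ex⟩ := (h m).1 x hx hd ⟨((u⁻¹ : Bˣ) : B) • y, N.gr_smul _ _ _ hy, by
      rw [N.d_smul, ey, LinearMap.comp_apply, RG.ml_apply, smul_smul, Units.inv_mul, one_smul]⟩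
    refine ⟨k * n, c ^ n • x', M.gr_smul _ _ _ hx', ?_⟩
    rw [M.d_smul, ex, smul_smul, pow_mul, e, mul_pow, mul_comm]
  · intro y hy hd
    obtain ⟨n, x, hx, hdx, y', hy', ey⟩ := (h m).2 (((u⁻¹ : Bˣ) : B) • y) (N.gr_smul _ _ _ hy)
      (by rw [N.d_smul, hd, smul_zero])
    refine ⟨k * n, c ^ n • x, M.gr_smul _ _ _ hx, by rw [M.d_smul, hdx, smul_zero],
      (φ c ^ n * u) • y', N.gr_smul _ _ _ hy', ?_⟩
    rw [N.d_smul, ey, LinearMap.comp_apply, RG.ml_apply, hρ, smul_sub, smul_smul, smul_smul,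
      smul_smul, pow_mul, ← map_pow φ s', e, map_mul, mul_pow, map_pow, mul_comm (u : B)]
    congr 2
    rw [mul_assoc, mul_assoc, mul_left_comm (u : B), Units.mul_inv, mul_one, mul_comm]

end Ring

/-- A gauge transformation. -/
structure Gauge (T T' : TDat I) where
  m : ∀ i, T'.R i ≃ₐ[ℂ] T.R i
  m_tau : ∀ {i j : I} (a : i ⟶ j) (r : T'.R i), m j (T'.tau a r) = T.tau a (m i r)
  m_w : ∀ i (r : T'.R i), m i (T'.w i r) = T.w i (m i r)
  nu : ℂ
  nu_ne : nu ≠ 0
  m_dd : ∀ i (r : T'.R i), m i (T'.dd i r) = nu • T.dd i (m i r)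
  b : ∀ i, T.R i
  w_b : ∀ i, T.w i (b i) = - b i
  sg : I → ℤˣ
  phi : ∀ {i j : I}, (i ⟶ j) → (T.R j)ˣ
  phi_id : ∀ i, (phi (𝟙 i) : T.R i) = 1
  phi_comp : ∀ {i j k : I} (a : i ⟶ j) (c : j ⟶ k),
    (phi (a ≫ c) : T.R k) = T.tau c (phi a) * phi c
  w_phi : ∀ {i j : I} (a : i ⟶ j),
    T.w j (phi a) = ((sg i : ℤ) * (sg j : ℤ)) • (phi a : T.R j)
  eta : ∀ {i j : I} (a : i ⟶ j), m j (T'.eta a) * phi a =
    phi a * (nu • T.eta a + T.tau a (b i) - b j) - nu • T.dd j (phi a)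

namespace Gauge

variable {T T' : TDat I} (g : Gauge T T')

theorem sg_sq (i : I) : (g.sg i : ℤ) * (g.sg i : ℤ) = 1 := by
  rw [← Units.val_mul, Int.units_mul_self, Units.val_one]

/-- The transformed family. -/
def obj (M : TObj T) : TObj T' where
  M i := (M.M i).res (g.m i : T'.R i →ₐ[ℂ] T.R i)
  D i := g.nu • M.D i + (M.M i).ml (g.b i)
  D_smul i r x := by
    change (M.M i).V at x
    change g.nu • M.D i (g.m i r • x) + g.b i • g.m i r • x =
      g.m i r • (g.nu • M.D i x + g.b i • x) + g.m i (T'.dd i r) • x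
    rw [M.D_smul, g.m_dd, smul_add, smul_add, smul_assoc, smul_comm (g.b i), smul_comm g.nu]
    abel
  D_d i x := by
    change (M.M i).V at x
    change (M.M i).d (g.nu • M.D i x + g.b i • x) =
      g.nu • M.D i ((M.M i).d x) + g.b i • (M.M i).d x
    rw [map_add, map_smul, M.D_d, RG.d_smul]
  D_gr i m x hx := add_mem (Submodule.smul_mem _ _ (M.D_gr i m x hx)) ((M.M i).gr_smul _ _ _ hx)
  e i := M.e i
  e_smul i r x := M.e_smul i (g.m i r) x
  e_d := M.e_d
  e_gr := M.e_gr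
  e_e := M.e_e
  D_e i x := by
    change (M.M i).V at x
    change g.nu • M.D i (M.e i x) + g.b i • M.e i x = M.e i (g.nu • M.D i x + g.b i • x)
    rw [map_add, map_smul, M.D_e, M.e_smul]
  w i := (g.sg i : ℤ) • M.w i
  w_smul i r x := by
    change (M.M i).V at x
    change (g.sg i : ℤ) • M.w i (g.m i r • x) = g.m i (T'.w i r) • (g.sg i : ℤ) • M.w i x
    rw [M.w_smul, g.m_w, smul_comm]
  w_d i x := by
    change (M.M i).V at x
    change (M.M i).d ((g.sg i : ℤ) • M.w i x) = (g.sg i : ℤ) • M.w i ((M.M i).d x)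
    rw [map_zsmul, M.w_d]
  w_gr i m x hx := zsmul_mem (M.w_gr i m x hx) _
  w_w i x := by
    change (M.M i).V at x
    change (g.sg i : ℤ) • M.w i ((g.sg i : ℤ) • M.w i x) = x
    rw [map_zsmul, M.w_w, smul_smul, g.sg_sq, one_smul]
  w_D i x := by
    change (M.M i).V at x
    change (g.sg i : ℤ) • M.w i (g.nu • M.D i x + g.b i • x) =
      - (g.nu • M.D i ((g.sg i : ℤ) • M.w i x) + g.b i • (g.sg i : ℤ) • M.w i x)
    rw [map_add, map_smul, M.w_D, M.w_smul, g.w_b, map_zsmul, smul_comm g.nu, smul_comm (g.b i),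
      ← smul_add, ← smul_neg, neg_add, smul_neg, neg_smul]
  w_e i x := by
    change (M.M i).V at x
    change (g.sg i : ℤ) • M.w i (M.e i x) = - M.e i ((g.sg i : ℤ) • M.w i x)
    rw [M.w_e, map_zsmul, smul_neg]
  rho {_ j} a := (M.M j).ml (g.phi a) ∘ₗ M.rho a
  rho_id i x := by
    change (M.M i).V at x
    change (g.phi (𝟙 i) : T.R i) • M.rho (𝟙 i) x = x
    rw [g.phi_id, M.rho_id, one_smul]
  rho_comp {i j k} a c x := by
    change (M.M i).V at x
    change (g.phi (a ≫ c) : T.R k) • M.rho (a ≫ c) x =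
      (g.phi c : T.R k) • M.rho c ((g.phi a : T.R j) • M.rho a x)
    rw [g.phi_comp, M.rho_comp, M.rho_smul, smul_smul, mul_comm]
  rho_smul {i j} a r x := by
    change (M.M i).V at x
    change (g.phi a : T.R j) • M.rho a (g.m i r • x) =
      g.m j (T'.tau a r) • (g.phi a : T.R j) • M.rho a x
    rw [M.rho_smul, g.m_tau, smul_comm]
  rho_d {i j} a x := by
    change (M.M i).V at x
    change (g.phi a : T.R j) • M.rho a ((M.M i).d x) = (M.M j).d ((g.phi a : T.R j) • M.rho a x)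
    rw [M.rho_d, RG.d_smul]
  rho_gr {_ j} a m x hx := (M.M j).gr_smul _ _ _ (M.rho_gr a m x hx)
  rho_D {i j} a x := by
    change (M.M i).V at x
    change (g.phi a : T.R j) • M.rho a (g.nu • M.D i x + g.b i • x) =
      (g.nu • M.D j ((g.phi a : T.R j) • M.rho a x) + g.b j • (g.phi a : T.R j) • M.rho a x) +
        g.m j (T'.eta a) • (g.phi a : T.R j) • M.rho a x
    rw [map_add, map_smul, M.rho_D, M.rho_smul, M.D_smul, smul_smul (g.m j _), g.eta]
    simp only [smul_add, sub_smul, add_smul, mul_smul, smul_sub, smul_assoc]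
    rw [smul_comm (g.b j), smul_comm g.nu (g.phi a : T.R j) (M.D j _)]
    abel
  rho_e {i j} a x := by
    change (M.M i).V at x
    change (g.phi a : T.R j) • M.rho a (M.e i x) = M.e j ((g.phi a : T.R j) • M.rho a x)
    rw [M.rho_e, M.e_smul]
  rho_w {i j} a x := by
    change (M.M i).V at x
    change (g.phi a : T.R j) • M.rho a ((g.sg i : ℤ) • M.w i x) =
      (g.sg j : ℤ) • M.w j ((g.phi a : T.R j) • M.rho a x)
    rw [map_zsmul, M.rho_w, M.w_smul, g.w_phi, smul_assoc, smul_smul (g.sg j : ℤ), mul_left_comm,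
      g.sg_sq, mul_one, smul_comm]

theorem isCo {M N : TObj T} {p : ℤ} (u : Co M N p) : IsCo (g.obj M) (g.obj N) p u.f where
  deg := u.isCo.deg
  lin i r x := u.isCo.lin i (g.m i r) x
  D i x := by
    change (M.M i).V at x
    change u.f i (g.nu • M.D i x + g.b i • x) = g.nu • N.D i (u.f i x) + g.b i • u.f i x
    rw [map_add, map_smul, u.isCo.D, u.isCo.lin]
  e := u.isCo.e
  w i x := by
    change (M.M i).V at x
    change u.f i ((g.sg i : ℤ) • M.w i x) = (g.sg i : ℤ) • N.w i (u.f i x)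
    rw [map_zsmul, u.isCo.w]
  rho {i j} a x := by
    change (M.M i).V at x
    change u.f j ((g.phi a : T.R j) • M.rho a x) = (g.phi a : T.R j) • N.rho a (u.f i x)
    rw [u.isCo.lin, u.isCo.rho]

/-- The action on cochains. -/
def cmap (M N : TObj T) (p : ℤ) : Co M N p →ₗ[ℂ] Co (g.obj M) (g.obj N) p where
  toFun u := Co.mk (M := g.obj M) (N := g.obj N) u.f (g.isCo u)
  map_add' _ _ := rfl
  map_smul' _ _ := rfl

theorem cmap_dif (M N : TObj T) (m n : ℤ) (u : Co M N m) :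
    g.cmap M N n (Co.dif m n u) = Co.dif m n (g.cmap M N m u) :=
  Co.eq_dif _ _ (fun h i x => Co.dif_f h u i x) (fun h => by rw [Co.dif_ne h, map_zero])

/-- The DG functor on all families. -/
def fa : DGF (TA T) (TA T') where
  obj := g.obj
  map n := g.cmap _ _ n
  map_one _ := rfl
  map_comp _ _ _ := rfl
  map_d m n α := g.cmap_dif _ _ m n α

theorem cart {M : TObj T} (h : Cart M) : Cart (g.obj M) := by
  intro i j a
  obtain ⟨k, c, e⟩ := (T'.away a).dvd (t := (g.m i).symm (T.s a)) (by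
    have h1 := (T.away a).unit.map (g.m j).symm
    rwa [← (g.m i).apply_symm_apply (T.s a), ← g.m_tau, AlgEquiv.symm_apply_apply] at h1)
  have e' : g.m i (T'.s a) ^ k = T.s a * g.m i c := by
    rw [← map_pow, e, map_mul, AlgEquiv.apply_symm_apply]
  have h2 := LocQ.change (h a) (M.rho_smul a) (g.phi a) e'
  rw [← g.m_tau] at h2
  intro m
  refine ⟨fun x hx hd hy => ?_, fun y hy hd => ?_⟩
  · obtain ⟨n, x', hx', ex⟩ := (h2 m).1 x hx hd hy
    rw [← map_pow] at ex
    exact ⟨n, x', hx', ex⟩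
  · obtain ⟨n, x, hx, hdx, y', hy', ey⟩ := (h2 m).2 y hy hd
    rw [← map_pow] at ey
    exact ⟨n, x, hx, hdx, y', hy', ey⟩

/-- The DG functor on cartesian families. -/
def fm : DGF (TM T) (TM T') :=
  show DGF ((TA T).full Cart) ((TA T').full Cart) from
    g.fa.restr fun X h => @cart _ _ _ _ g X h

theorem pres : Pres (WM T) (WM T') g.fm.z0 := fun _ _ _ hu i => hu i

theorem isCo_id (h : Gauge T' T) (hm : ∀ i r, g.m i (h.m i r) = r) (hnu : h.nu * g.nu = 1)
    (hb : ∀ i, h.nu • g.b i + g.m i (h.b i) = 0) (hs : ∀ i, h.sg i = g.sg i)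
    (hp : ∀ {i j : I} (a : i ⟶ j), g.m j (h.phi a) * g.phi a = 1) (M : TObj T) :
    IsCo (h.obj (g.obj M)) M 0 (fun _ => LinearMap.id) where
  deg i m x hx := by rw [add_zero]; exact hx
  lin i r x := by
    change (M.M i).V at x
    change g.m i (h.m i r) • x = r • x
    rw [hm]
  D i x := by
    change (M.M i).V at x
    change h.nu • (g.nu • M.D i x + g.b i • x) +
      g.m i (h.b i) • x = M.D i x
    rw [smul_add, smul_smul, hnu, one_smul, add_assoc, ← smul_assoc, ← add_smul, hb, zero_smul,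
      add_zero]
  e i x := (one_smul ℤ (M.e i x)).symm
  w i x := by
    change (M.M i).V at x
    change (h.sg i : ℤ) • (g.sg i : ℤ) • M.w i x = M.w i x
    rw [hs, smul_smul, g.sg_sq, one_smul]
  rho {i j} a x := by
    change (M.M i).V at x
    change g.m j (h.phi a) • (g.phi a : T.R j) • M.rho a x = M.rho a x
    rw [smul_smul, hp, one_smul]

theorem zig (h : Gauge T' T) (hm : ∀ i r, g.m i (h.m i r) = r) (hnu : h.nu * g.nu = 1)
    (hb : ∀ i, h.nu • g.b i + g.m i (h.b i) = 0) (hs : ∀ i, h.sg i = g.sg i)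
    (hp : ∀ {i j : I} (a : i ⟶ j), g.m j (h.phi a) * g.phi a = 1) :
    Zig (WM T) (g.fm.z0 ⋙ h.fm.z0) (𝟭 _) :=
  NatW.zig ⟨natT (Φ := g.fm.comp h.fm) (Ψ := DGF.id _)
    (fun X => Co.mk _ (g.isCo_id h hm hnu hb hs hp X.1))
    (fun _ => (Co.dif_zero_iff _).2 fun _ _ => rfl) (fun _ _ => rfl), fun _ _ => GD.Qis.id _⟩

theorem dd_inv (j : I) (u : (T.R j)ˣ) :
    T.dd j ((u⁻¹ : (T.R j)ˣ) : T.R j) = - ((u⁻¹ : (T.R j)ˣ) * (u⁻¹ : (T.R j)ˣ) * T.dd j u) := by
  have h := congrArg (T.dd j) (Units.mul_inv u)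
  rw [Derivation.leibniz, Derivation.map_one_eq_zero, smul_eq_mul, smul_eq_mul] at h
  have h1 := Units.mul_inv u
  linear_combination ((u⁻¹ : (T.R j)ˣ) : T.R j) * h - T.dd j ((u⁻¹ : (T.R j)ˣ) : T.R j) * h1

/-- The inverse gauge transformation. -/
def symm : Gauge T' T where
  m i := (g.m i).symm
  m_tau {i j} a r := (g.m j).injective (by simp only [g.m_tau, AlgEquiv.apply_symm_apply])
  m_w i r := (g.m i).injective (by simp only [g.m_w, AlgEquiv.apply_symm_apply])
  nu := g.nu⁻¹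
  nu_ne := inv_ne_zero g.nu_ne
  m_dd i r := (g.m i).injective (by
    simp only [map_smul, g.m_dd, AlgEquiv.apply_symm_apply, smul_smul, inv_mul_cancel₀ g.nu_ne,
      one_smul])
  b i := - g.nu⁻¹ • (g.m i).symm (g.b i)
  w_b i := (g.m i).injective (by
    simp only [map_smul, map_neg, g.m_w, AlgEquiv.apply_symm_apply, g.w_b, smul_neg])
  sg := g.sg
  phi {_ j} a := Units.map ((g.m j).symm : T.R j →* T'.R j) (g.phi a)⁻¹
  phi_id i := by
    rw [Units.ext (g.phi_id i) (v := 1), inv_one, map_one, Units.val_one]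
  phi_comp {i j k} a c := (g.m k).injective (by
    have h1 := Units.mul_inv (g.phi (a ≫ c))
    have h2 := congrArg (T.tau c) (Units.mul_inv (g.phi a))
    have h3 := Units.mul_inv (g.phi c)
    rw [g.phi_comp] at h1
    rw [map_mul, map_one] at h2
    simp only [Units.coe_map, MonoidHom.coe_coe, map_mul, g.m_tau, AlgEquiv.apply_symm_apply]
    linear_combination (T.tau c ((g.phi a)⁻¹ : (T.R j)ˣ) * ((g.phi c)⁻¹ : (T.R k)ˣ)) * h1 -
      (((g.phi (a ≫ c))⁻¹ : (T.R k)ˣ) : T.R k) * (g.phi c * ((g.phi c)⁻¹ : (T.R k)ˣ) * h2 + h3))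
  w_phi {i j} a := (g.m j).injective (by
    have h1 := Units.mul_inv (g.phi a)
    have h2 := congrArg (T.w j) h1
    have h3 := congrArg (Int.cast (R := T.R j)) (g.sg_sq i)
    have h4 := congrArg (Int.cast (R := T.R j)) (g.sg_sq j)
    rw [map_mul, map_one, g.w_phi, zsmul_eq_mul] at h2
    push_cast at h2 h3 h4
    simp only [Units.coe_map, MonoidHom.coe_coe, g.m_w, AlgEquiv.apply_symm_apply, zsmul_eq_mul,
      map_mul, map_intCast, Int.cast_mul]
    linear_combination (((g.sg i : ℤ) : T.R j) * ((g.sg j : ℤ) : T.R j) *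
      ((g.phi a)⁻¹ : (T.R j)ˣ)) * h2 - T.w j ((g.phi a)⁻¹ : (T.R j)ˣ) *
      (h1 + g.phi a * ((g.phi a)⁻¹ : (T.R j)ˣ) *
        (h3 + ((g.sg i : ℤ) : T.R j) * ((g.sg i : ℤ) : T.R j) * h4)))
  eta {i j} a := (g.m j).injective (by
    have h1 := Units.mul_inv (g.phi a)
    have h2 := g.eta a
    have h3 : algebraMap ℂ (T.R j) g.nu⁻¹ * algebraMap ℂ (T.R j) g.nu = 1 := by
      rw [← map_mul, inv_mul_cancel₀ g.nu_ne, map_one]
    simp only [Units.coe_map, MonoidHom.coe_coe, map_mul, map_sub, map_add, map_smul, g.m_tau,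
      g.m_dd, AlgEquiv.apply_symm_apply, dd_inv]
    simp only [Algebra.smul_def, map_neg] at h2 ⊢
    set p : T.R j := (g.phi a : T.R j)
    set q : T.R j := (((g.phi a)⁻¹ : (T.R j)ˣ) : T.R j)
    set n := algebraMap ℂ (T.R j) g.nu
    set n' := algebraMap ℂ (T.R j) g.nu⁻¹
    linear_combination (- n' * q * q) * h2 + (n' * q * (g.m j (T'.eta a) -
      (n * T.eta a + T.tau a (g.b i) - g.b j))) * h1 - (q * T.eta a) * h3)

include g in
theorem teq : TEq T T' := by
  refine ⟨g.fm, g.symm.fm, g.pres, g.symm.pres, g.zig g.symm (fun i r => ?_) ?_ (fun i => ?_)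
    (fun _ => rfl) (fun {i j} a => ?_), g.symm.zig g (fun i r => ?_) ?_ (fun i => ?_)
    (fun _ => rfl) (fun {i j} a => ?_)⟩
  · exact (g.m i).apply_symm_apply r
  · exact inv_mul_cancel₀ g.nu_ne
  · change g.nu⁻¹ • g.b i + g.m i (- g.nu⁻¹ • (g.m i).symm (g.b i)) = 0
    rw [map_smul, AlgEquiv.apply_symm_apply, neg_smul, add_neg_cancel]
  · change g.m j ((g.m j).symm ((g.phi a)⁻¹ : (T.R j)ˣ)) * g.phi a = 1
    rw [AlgEquiv.apply_symm_apply, Units.inv_mul]
  · exact (g.m i).symm_apply_apply r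
  · exact mul_inv_cancel₀ g.nu_ne
  · change g.nu • (- g.nu⁻¹ • (g.m i).symm (g.b i)) + (g.m i).symm (g.b i) = 0
    rw [smul_smul, mul_neg, mul_inv_cancel₀ g.nu_ne, neg_smul, one_smul, neg_add_cancel]
  · change (g.m j).symm (g.phi a) * (g.m j).symm ((g.phi a)⁻¹ : (T.R j)ˣ) = 1
    rw [← map_mul, Units.mul_inv, map_one]

end Gauge

/-- Gauge equivalent data have equivalent categories of cartesian families. -/
theorem teq_gauge (T T' : TDat I) (k : ∀ i, T.R i ≃ₐ[ℂ] T'.R i)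
    (k_tau : ∀ {i j : I} (a : i ⟶ j) (r : T.R i), T'.tau a (k i r) = k j (T.tau a r))
    (k_w : ∀ i (r : T.R i), T'.w i (k i r) = k i (T.w i r)) (nu : ℂ) (hnu : nu ≠ 0)
    (k_dd : ∀ i (r : T.R i), T'.dd i (k i r) = nu • k i (T.dd i r))
    (b : ∀ i, T'.R i) (w_b : ∀ i, T'.w i (b i) = - b i) (sg : I → ℤˣ)
    (phi : ∀ {i j : I}, (i ⟶ j) → (T'.R j)ˣ) (phi_id : ∀ i, (phi (𝟙 i) : T'.R i) = 1)
    (phi_comp : ∀ {i j l : I} (a : i ⟶ j) (c : j ⟶ l),
      (phi (a ≫ c) : T'.R l) = T'.tau c (phi a) * phi c)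
    (w_phi : ∀ {i j : I} (a : i ⟶ j),
      T'.w j (phi a) = ((sg i : ℤ) * (sg j : ℤ)) • (phi a : T'.R j))
    (eta : ∀ {i j : I} (a : i ⟶ j), T'.eta a * phi a =
      phi a * (nu • k j (T.eta a) + T'.tau a (b i) - b j) - T'.dd j (phi a)) : TEq T T' := by
  have m_tau : ∀ {i j : I} (a : i ⟶ j) (r : T'.R i),
      (k j).symm (T'.tau a r) = T.tau a ((k i).symm r) := fun {i j} a r =>
    (k j).injective (by rw [← k_tau, AlgEquiv.apply_symm_apply, AlgEquiv.apply_symm_apply])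
  have m_w : ∀ i (r : T'.R i), (k i).symm (T'.w i r) = T.w i ((k i).symm r) := fun i r =>
    (k i).injective (by rw [← k_w, AlgEquiv.apply_symm_apply, AlgEquiv.apply_symm_apply])
  have m_dd : ∀ i (r : T'.R i), (k i).symm (T'.dd i r) = nu • T.dd i ((k i).symm r) := fun i r =>
    (k i).injective (by
      rw [map_smul, ← k_dd, AlgEquiv.apply_symm_apply, AlgEquiv.apply_symm_apply])
  exact Gauge.teq
    { m := fun i => (k i).symm
      m_tau := m_tau
      m_w := m_w
      nu := nu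
      nu_ne := hnu
      m_dd := m_dd
      b := fun i => (k i).symm (b i)
      w_b := fun i => by rw [← m_w, w_b, map_neg]
      sg := sg
      phi := fun {_ j} a => Units.map ((k j).symm : T'.R j →* T.R j) (phi a)
      phi_id := fun i => by
        rw [Units.coe_map, phi_id, map_one]
      phi_comp := fun a c => by
        simp only [Units.coe_map, MonoidHom.coe_coe, phi_comp, map_mul, m_tau]
      w_phi := fun a => by
        simp only [Units.coe_map, MonoidHom.coe_coe, ← m_w, w_phi, map_zsmul]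
      eta := fun {i j} a => by
        have h := congrArg (k j).symm (eta a)
        simpa only [Units.coe_map, MonoidHom.coe_coe, map_mul, map_sub, map_add, map_smul, m_tau,
          m_dd, AlgEquiv.symm_apply_apply] using h }

end

end Vale.Agent.P286ET
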